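import Vale.Agent.P371.Lift.Main

/-!
P371: `L_γ(m) = L^(1)_γ` for every `1/2 < γ < 3/2` and every `m ≥ 1`.
-/

namespace Vale.Agent.Results.P371.FullRange

theorem result :
    ∀ (γ : ℝ) (m : ℕ), 1 / 2 < γ → γ < 3 / 2 → 1 ≤ m →
      IsGreatest (Vale.Agent.P371.Calib.ratiosPow γ m) (Vale.Agent.P371.Gamma.oneState γ) :=
  fun _ _ h1 h2 hm => Vale.Agent.P371.Lift.isGreatest_ratiosPow h1 h2 hm

end Vale.Agent.Results.P371.FullRange
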